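import Vale.Agent.P218CO.Geo

/-! The configuration map: algebraic properties -/

open Set Filter Metric Topology
open scoped ContDiff Matrix

noncomputable section

set_option linter.unusedSectionVars false
set_option linter.unusedVariables false

namespace Vale.Agent.P218CG

open Vale.Agent.P218CO Vale.Agent.P218VA Vale.Agent.P218MP Vale.Agent.P272.K.LIN
open Vale.Agent.P218GA (Model E3 cx mat mat_orth cx_isometry)
open Vale.Agent.P218XI (Frame cylF coneF kap co si d1 rt)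

/-! The Cayley transform -/

lemma cay_zero : cay 0 0 = 1 := by
  ext i j
  fin_cases i <;> fin_cases j <;> simp [cay, skw]

lemma cay_eq {b1 b2 : ℂ} : cay b1 b2 =
    !![1 - (1 + (b1 ^ 2 + b2 ^ 2) / 4)⁻¹ * b1 ^ 2 / 2, -((1 + (b1 ^ 2 + b2 ^ 2) / 4)⁻¹ * b1 * b2 / 2),
        (1 + (b1 ^ 2 + b2 ^ 2) / 4)⁻¹ * b1;
      -((1 + (b1 ^ 2 + b2 ^ 2) / 4)⁻¹ * b1 * b2 / 2), 1 - (1 + (b1 ^ 2 + b2 ^ 2) / 4)⁻¹ * b2 ^ 2 / 2,
        (1 + (b1 ^ 2 + b2 ^ 2) / 4)⁻¹ * b2;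
      -((1 + (b1 ^ 2 + b2 ^ 2) / 4)⁻¹ * b1), -((1 + (b1 ^ 2 + b2 ^ 2) / 4)⁻¹ * b2),
        1 - (1 + (b1 ^ 2 + b2 ^ 2) / 4)⁻¹ * (b1 ^ 2 + b2 ^ 2) / 2] := by
  unfold cay skw
  generalize (1 + (b1 ^ 2 + b2 ^ 2) / 4)⁻¹ = c
  ext i j
  fin_cases i <;> fin_cases j <;> simp <;> ring

lemma cay_orth {b1 b2 : ℂ} (h : 1 + (b1 ^ 2 + b2 ^ 2) / 4 ≠ 0) : (cay b1 b2)ᵀ * cay b1 b2 = 1 := by
  have e := inv_mul_cancel₀ h
  rw [cay_eq]
  generalize (1 + (b1 ^ 2 + b2 ^ 2) / 4)⁻¹ = c at e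
  ext i j
  fin_cases i <;> fin_cases j <;> simp [Matrix.mul_apply, Fin.sum_univ_three]
  · linear_combination c * b1 ^ 2 * e
  · linear_combination c * b1 * b2 * e
  · ring
  · linear_combination c * b1 * b2 * e
  · linear_combination c * b2 ^ 2 * e
  · ring
  · ring
  · ring
  · linear_combination c * (b1 ^ 2 + b2 ^ 2) * e

lemma cay_det {b1 b2 : ℂ} (h : 1 + (b1 ^ 2 + b2 ^ 2) / 4 ≠ 0) : (cay b1 b2).det = 1 := by
  have e := inv_mul_cancel₀ h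
  rw [cay_eq]
  generalize (1 + (b1 ^ 2 + b2 ^ 2) / 4)⁻¹ = c at e
  simp [Matrix.det_fin_three]
  linear_combination c * (b1 ^ 2 + b2 ^ 2) * e

lemma cay_ne {b1 b2 : ℂ} (h1 : ‖b1‖ ≤ 1) (h2 : ‖b2‖ ≤ 1) : 1 + (b1 ^ 2 + b2 ^ 2) / 4 ≠ 0 := by
  intro h
  have h3 : b1 ^ 2 + b2 ^ 2 = -4 := by linear_combination 4 * h
  have h4 : ‖b1 ^ 2 + b2 ^ 2‖ ≤ 2 := by
    refine (norm_add_le _ _).trans ?_
    rw [norm_pow, norm_pow]
    nlinarith [norm_nonneg b1, norm_nonneg b2]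
  rw [h3] at h4
  norm_num at h4

lemma cay_ne_real (b1 b2 : ℝ) : 1 + ((b1 : ℂ) ^ 2 + (b2 : ℂ) ^ 2) / 4 ≠ 0 := by
  have : (0 : ℝ) < 1 + (b1 ^ 2 + b2 ^ 2) / 4 := by positivity
  exact_mod_cast this.ne'

lemma star_cay (b1 b2 : ℂ) (i j : Fin 3) : star (cay b1 b2 i j) = cay (star b1) (star b2) i j := by
  rw [cay_eq, cay_eq]
  fin_cases i <;> fin_cases j <;> simp

lemma contDiffAt_cay {𝕜 : Type*} [NontriviallyNormedField 𝕜] [NormedAlgebra 𝕜 ℂ] {H : Type*}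
    [NormedAddCommGroup H] [NormedSpace 𝕜 H] {n : WithTop ℕ∞} {x : H} {b1 b2 : H → ℂ}
    (h1 : ContDiffAt 𝕜 n b1 x) (h2 : ContDiffAt 𝕜 n b2 x)
    (h : 1 + (b1 x ^ 2 + b2 x ^ 2) / 4 ≠ 0) (i j : Fin 3) :
    ContDiffAt 𝕜 n (fun y => cay (b1 y) (b2 y) i j) x := by
  have h3 : ContDiffAt 𝕜 n (fun y => (1 + (b1 y ^ 2 + b2 y ^ 2) / 4)⁻¹) x :=
    contDiffAt_cinv (contDiffAt_const.add (((h1.pow 2).add (h2.pow 2)).div_const 4)) h
  simp only [cay_eq]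
  fin_cases i <;> fin_cases j
  · exact contDiffAt_const.sub ((h3.mul (h1.pow 2)).div_const 2)
  · exact (((h3.mul h1).mul h2).div_const 2).neg
  · exact h3.mul h1
  · exact (((h3.mul h1).mul h2).div_const 2).neg
  · exact contDiffAt_const.sub ((h3.mul (h2.pow 2)).div_const 2)
  · exact h3.mul h2
  · exact (h3.mul h1).neg
  · exact (h3.mul h2).neg
  · exact contDiffAt_const.sub ((h3.mul ((h1.pow 2).add (h2.pow 2))).div_const 2)

lemma star_mulVec {A A' : Matrix (Fin 3) (Fin 3) ℂ} (h : ∀ i j, star (A i j) = A' i j) (v : C3) :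
    star (A *ᵥ v) = A' *ᵥ star v := by
  ext i
  simp [Matrix.mulVec, dot3, ← h]

lemma contDiffAt_mulVec {𝕜 : Type*} [NontriviallyNormedField 𝕜] [NormedAlgebra 𝕜 ℂ] {H : Type*}
    [NormedAddCommGroup H] [NormedSpace 𝕜 H] {n : WithTop ℕ∞} {x : H}
    {A : H → Matrix (Fin 3) (Fin 3) ℂ} {v : H → C3}
    (hA : ∀ i j, ContDiffAt 𝕜 n (fun y => A y i j) x) (hv : ContDiffAt 𝕜 n v x) :
    ContDiffAt 𝕜 n (fun y => A y *ᵥ v y) x :=
  contDiffAt_pi.2 fun i => contDiffAt_dot (contDiffAt_pi.2 (hA i)) hv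

lemma sgn_sq (b : Bool) : sgn b ^ 2 = 1 := by cases b <;> simp [sgn]

lemma abs_sgn (b : Bool) : |sgn b| = 1 := by cases b <;> simp [sgn]

lemma sgn_ne (b : Bool) : sgn b ≠ 0 := by cases b <;> simp [sgn]

lemma star_cx (v : E3) : star (cx v) = cx v := by ext i; simp

lemma exists_cx {v : C3} (h : star v = v) : ∃ u : E3, cx u = v :=
  ⟨WithLp.toLp 2 fun i => (v i).re, funext fun i => by
    have := congrFun h i
    exact Complex.conj_eq_iff_re.1 this⟩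

lemma lam_ne {t : ℂ} (h : |t.im| < 1) : 1 + t ^ 2 ≠ 0 := by
  intro h0
  have h1 := congrArg Complex.re h0
  simp only [sq, Complex.add_re, Complex.one_re, Complex.mul_re, Complex.zero_re] at h1
  have h2 := abs_lt.1 h
  nlinarith [mul_self_nonneg t.re]

lemma Xt_eq (F : Frame) (w θ : ℝ) (t : ℂ) : F.Xt w θ t = (2 * rt w * d1 t 1) • F.v θ t := by
  simp [Frame.Xt, Frame.R_mulVec]

/-! The ends -/

variable {S : Set E3} {w : E3 → ℝ} {δ C : ℝ} {ι κ M : Type} [TopologicalSpace M]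
  [ChartedSpace E2 M] (m : Model S w δ C ι κ M)

lemma ends_reg : (ends m).reg = m.reg := rfl

lemma ends_w0 : (ends m).w0 = m.w0 := rfl

lemma rotM_inl (i : ι) (B : ι × Fin 2 → ℂ) :
    rotM m (.inl i) B = mat (m.Q i) * cay (B (i, 0)) (B (i, 1)) := rfl

lemma rotM_inr (k : κ) (B : ι × Fin 2 → ℂ) : rotM m (.inr k) B = 1 := rfl

lemma rotM_inl_zero (i : ι) : rotM m (.inl i) 0 = mat (m.Q i) := by
  rw [rotM_inl, Pi.zero_apply, Pi.zero_apply, cay_zero, mul_one]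

lemma rotM_orth' (j : ι ⊕ κ) {B : ι × Fin 2 → ℂ}
    (h : ∀ i, 1 + (B (i, 0) ^ 2 + B (i, 1) ^ 2) / 4 ≠ 0) : (rotM m j B)ᵀ * rotM m j B = 1 := by
  cases j with
  | inl i =>
    rw [rotM_inl, Matrix.transpose_mul, Matrix.mul_assoc, ← Matrix.mul_assoc (mat _)ᵀ, mat_orth,
      Matrix.one_mul, cay_orth (h i)]
  | inr k => simp [rotM_inr]

lemma rotM_det' (j : ι ⊕ κ) {B : ι × Fin 2 → ℂ}
    (h : ∀ i, 1 + (B (i, 0) ^ 2 + B (i, 1) ^ 2) / 4 ≠ 0) : (rotM m j B).det = (rotM m j 0).det := by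
  cases j with
  | inl i => rw [rotM_inl_zero, rotM_inl, Matrix.det_mul, cay_det (h i), mul_one]
  | inr k => rw [rotM_inr, rotM_inr]

lemma star_rotM (j : ι ⊕ κ) (B : ι × Fin 2 → ℂ) (i k : Fin 3) :
    star (rotM m j B i k) = rotM m j (star B) i k := by
  cases j with
  | inl l =>
    simp only [rotM_inl, Matrix.mul_apply, star_sum, star_mul', star_cay, Pi.star_apply]
    simp [mat]
  | inr l => by_cases h : i = k <;> simp [rotM_inr, h]

lemma contDiffAt_rotM {𝕜 : Type*} [NontriviallyNormedField 𝕜] [NormedAlgebra 𝕜 ℂ] {H : Type*}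
    [NormedAddCommGroup H] [NormedSpace 𝕜 H] {n : WithTop ℕ∞} {x : H} (j : ι ⊕ κ)
    {B : H → ι × Fin 2 → ℂ} (hB : ∀ l, ContDiffAt 𝕜 n (fun y => B y l) x)
    (h : ∀ i, 1 + (B x (i, 0) ^ 2 + B x (i, 1) ^ 2) / 4 ≠ 0) (i k : Fin 3) :
    ContDiffAt 𝕜 n (fun y => rotM m j (B y) i k) x := by
  cases j with
  | inl l =>
    simp only [rotM_inl, Matrix.mul_apply]
    exact ContDiffAt.sum fun r _ =>
      contDiffAt_const.mul (contDiffAt_cay (hB _) (hB _) (h l) r k)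
  | inr l => exact contDiffAt_const

lemma star_γ (j : ι ⊕ κ) (θ : ℝ) : star ((fr m j).γ θ) = (fr m j).γ θ := by
  cases j with
  | inl i => exact (cx_e3 ▸ star_cx P218GA.e3 : star e3c = e3c)
  | inr k => exact star_cx _

lemma star_n (j : ι ⊕ κ) (θ : ℝ) : star ((fr m j).n θ) = (fr m j).n θ := by
  cases j with
  | inl i => exact (cx_eth θ ▸ star_cx (P218GA.eth θ) : star (ethc θ) = ethc θ)
  | inr k => exact star_cx _

lemma exists_scl (j : ι ⊕ κ) {r : ℝ} (hr : 1 ≤ r) : ∃ c : ℝ, 0 < c ∧ c ≤ 1 ∧ scl j r = c := by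
  cases j with
  | inl i =>
    have h1 : 1 ≤ √(8 * r) := Real.one_le_sqrt.2 (by linarith)
    exact ⟨_, inv_pos.2 (by linarith), inv_le_one_of_one_le₀ h1, rfl⟩
  | inr k => exact ⟨1, one_pos, le_rfl, rfl⟩

lemma star_scl (j : ι ⊕ κ) (r : ℝ) : star (scl j r) = scl j r := by
  cases j with
  | inl i => exact Complex.conj_ofReal _
  | inr k => exact star_one _

lemma contDiffAt_scl (j : ι ⊕ κ) {r : ℝ} (hr : 0 < r) : ContDiffAt ℝ ∞ (scl j) r := by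
  cases j with
  | inl i => exact P218XI.contDiffAt_kap hr
  | inr k => exact contDiffAt_const

lemma per_ub (j : ι ⊕ κ) : Per (ub m j) := by
  cases j with
  | inl i => exact m.U_periodic i
  | inr k => exact m.t_periodic k

lemma contDiffAt_ub (j : ι ⊕ κ) {p : ℝ × ℝ} (hp : m.w0 < p.1) : ContDiffAt ℝ ∞ (ub m j) p := by
  cases j with
  | inl i => exact m.U_smooth i p hp
  | inr k => exact m.t_smooth k p hp

variable (ε : ι ⊕ κ → Bool) {j : ι ⊕ κ} {p : ℝ × ℝ} {U : ℂ} {B : ι × Fin 2 → ℂ}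

lemma lam_tE (j : ι ⊕ κ) (hp : 1 ≤ p.1) (hU : |U.im| < 1) : 1 + tE m ε j p U ^ 2 ≠ 0 := by
  obtain ⟨c, h0, h1, h⟩ := exists_scl j hp
  refine lam_ne ?_
  have : (tE m ε j p U).im = c * (sgn (ε j) * U.im) := by simp [tE, h]
  rw [this, abs_mul, abs_mul, abs_sgn, abs_of_pos h0]
  nlinarith [abs_nonneg U.im]

lemma star_tE : star (tE m ε j p U) = tE m ε j p (star U) := by
  simp [tE, star_scl]

lemma star_XE : star (XE m ε j p U B) = XE m ε j p (star U) (star B) := by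
  rw [XE, XE, star_mulVec (star_rotM m j B), Frame.X_eq, Frame.X_eq, ← star_tE]
  simp [Frame.u, star_γ, star_n, co, si, rt]

lemma star_TE : star (TE m ε j p U B) = TE m ε j p (star U) (star B) := by
  rw [TE, TE, star_smul, star_mulVec (star_rotM m j B), Xt_eq, Xt_eq, ← star_tE]
  simp [Frame.v, star_γ, star_n, co, si, rt, d1, star_scl]

lemma tE_per (r θ : ℝ) : tE m ε j (r, θ + 2 * Real.pi) U = tE m ε j (r, θ) U := by
  simp only [tE, per_ub m j r θ]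

lemma XE_per (r θ : ℝ) : XE m ε j (r, θ + 2 * Real.pi) U B = XE m ε j (r, θ) U B := by
  simp only [XE, tE_per, Frame.X, Frame.R_per]

lemma TE_per (r θ : ℝ) : TE m ε j (r, θ + 2 * Real.pi) U B = TE m ε j (r, θ) U B := by
  simp only [TE, tE_per, Frame.Xt, Frame.R_per]

lemma XE_zero (j : ι ⊕ κ) (hp : m.w0 < p.1) : XE m ε j p 0 0 = cx (m.F ((ends m).Y j p)) := by
  cases j with
  | inl i =>
    have h := m.cyl i p hp
    rw [XE, rotM_inl_zero, show (ends m).Y (.inl i) p = _ from rfl, Ends.Y]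
    erw [h]
    rw [cx_isometry, P218XI.cx_xiCyl_Z, Frame.Z]
    simp [tE, scl, ub, fr]
  | inr k =>
    have h := m.cone k p hp
    rw [XE, rotM_inr, Ends.Y]
    erw [h]
    rw [P218XI.cx_xiCone]
    simp [tE, scl, ub, fr]

/-! The configuration map -/

variable [Fintype ι] [Fintype κ] (a : ℝ) {y : M}

lemma tilt_ne (h : ‖B‖ ≤ 1) (i : ι) : 1 + (B (i, 0) ^ 2 + B (i, 1) ^ 2) / 4 ≠ 0 :=
  cay_ne ((norm_le_pi_norm B _).trans h) ((norm_le_pi_norm B _).trans h)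

lemma rotM_orth (j : ι ⊕ κ) (h : ‖B‖ ≤ 1) : (rotM m j B)ᵀ * rotM m j B = 1 :=
  rotM_orth' m j (tilt_ne h)

lemma rotM_det (j : ι ⊕ κ) (h : ‖B‖ ≤ 1) : (rotM m j B).det = (rotM m j 0).det :=
  rotM_det' m j (tilt_ne h)

lemma norm_st_smul (b r : ℝ) (B : ι × Fin 2 → ℂ) : ‖((st b r : ℝ) : ℂ) • B‖ ≤ ‖B‖ := by
  rw [norm_smul, Complex.norm_real, Real.norm_of_nonneg (st_nonneg _ _)]
  exact mul_le_of_le_one_left (norm_nonneg _) (st_le_one _ _)

lemma Phi_below (hy : y ∈ (ends m).below a) (U : ℂ) (B : ι × Fin 2 → ℂ) :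
    Phi m ε a y U B = cx (m.F y) + U • cx (m.nu y) := by
  simp [Phi, Ends.core_below hy, Ends.cut_below hy]

lemma Tv_below (hy : y ∈ (ends m).below a) (U : ℂ) (B : ι × Fin 2 → ℂ) :
    Tv m ε a y U B = cx (m.nu y) := by
  simp [Tv, Ends.core_below hy, Ends.cut_below hy]

lemma Phi_Y0 (j : ι ⊕ κ) (hp : m.w0 < p.1) (U : ℂ) (B : ι × Fin 2 → ℂ) :
    Phi m ε a ((ends m).Y j p) U B = ((1 - st a p.1 : ℝ) : ℂ) •
      (cx (m.F ((ends m).Y j p)) + U • cx (m.nu ((ends m).Y j p))) +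
      ((st a p.1 : ℝ) : ℂ) • XE m ε j p U (((st (a + 1) p.1 : ℝ) : ℂ) • B) := by
  rw [Phi, Ends.core_Y hp, Ends.sum_of_mem (Ends.Y_mem j hp) fun j' h => by
    rw [Ends.onEnd_of_notMem h, smul_zero], Ends.cut_Y hp,
    Ends.onEnd_Y (fun r θ => XE_per m ε r θ) hp]

lemma Tv_Y0 (j : ι ⊕ κ) (hp : m.w0 < p.1) (U : ℂ) (B : ι × Fin 2 → ℂ) :
    Tv m ε a ((ends m).Y j p) U B = ((1 - st a p.1 : ℝ) : ℂ) • cx (m.nu ((ends m).Y j p)) +
      ((st a p.1 : ℝ) : ℂ) • TE m ε j p U (((st (a + 1) p.1 : ℝ) : ℂ) • B) := by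
  rw [Tv, Ends.core_Y hp, Ends.sum_of_mem (Ends.Y_mem j hp) fun j' h => by
    rw [Ends.onEnd_of_notMem h, smul_zero], Ends.cut_Y hp,
    Ends.onEnd_Y (fun r θ => TE_per m ε r θ) hp]

variable {a}

lemma Phi_Y1 (ha : m.w0 < a) (j : ι ⊕ κ) (hp : a + 1 ≤ p.1) (U : ℂ) (B : ι × Fin 2 → ℂ) :
    Phi m ε a ((ends m).Y j p) U B = XE m ε j p U (((st (a + 1) p.1 : ℝ) : ℂ) • B) := by
  rw [Phi_Y0 m ε a j (by linarith), st_one hp]; simp

lemma Tv_Y1 (ha : m.w0 < a) (j : ι ⊕ κ) (hp : a + 1 ≤ p.1) (U : ℂ) (B : ι × Fin 2 → ℂ) :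
    Tv m ε a ((ends m).Y j p) U B = TE m ε j p U (((st (a + 1) p.1 : ℝ) : ℂ) • B) := by
  rw [Tv_Y0 m ε a j (by linarith), st_one hp]; simp

lemma Phi_Y (ha : m.w0 < a) (j : ι ⊕ κ) (hp : a + 2 ≤ p.1) (U : ℂ) (B : ι × Fin 2 → ℂ) :
    Phi m ε a ((ends m).Y j p) U B = XE m ε j p U B := by
  rw [Phi_Y1 m ε ha j (by linarith), st_one (by linarith)]; simp

lemma Tv_Y (ha : m.w0 < a) (j : ι ⊕ κ) (hp : a + 2 ≤ p.1) (U : ℂ) (B : ι × Fin 2 → ℂ) :
    Tv m ε a ((ends m).Y j p) U B = TE m ε j p U B := by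
  rw [Tv_Y1 m ε ha j (by linarith), st_one (by linarith)]; simp

variable (a)

/-- regular points lie below every level or on an end -/
lemma reg_cases (hy : y ∈ m.reg) : (∀ j, y ∉ (m.φ j).source) ∨
    ∃ j, ∃ p : ℝ × ℝ, m.w0 < p.1 ∧ y = (ends m).Y j p := by
  rcases Ends.cases (𝓔 := ends m) y with h | ⟨j, h⟩ | ⟨j, p, hp, -, h⟩
  · exact Or.inl h
  · exact absurd h (hy j)
  · exact Or.inr ⟨j, p, hp, h⟩

lemma Phi_zero (hy : y ∈ m.reg) : Phi m ε a y 0 0 = cx (m.F y) := by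
  rcases reg_cases m hy with h | ⟨j, p, hp, rfl⟩
  · rw [Phi_below m ε a (Ends.below_of_core h a), zero_smul, add_zero]
  · rw [Phi_Y0 m ε a j hp, smul_zero, XE_zero m ε j hp, zero_smul, add_zero, ← add_smul]
    simp

lemma star_onEnd (j : ι ⊕ κ) (f : ℝ × ℝ → C3) (y : M) :
    star ((ends m).onEnd j f y) = (ends m).onEnd j (fun p => star (f p)) y := by
  by_cases h : y ∈ ((ends m).φ j).source
  · simp only [Ends.onEnd, ext0_of_mem h]
  · simp only [Ends.onEnd_of_notMem h, star_zero]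

lemma star_Phi (y : M) (U : ℂ) (B : ι × Fin 2 → ℂ) :
    star (Phi m ε a y U B) = Phi m ε a y (star U) (star B) := by
  simp [Phi, star_sum, star_cx, star_onEnd, star_XE]

lemma star_Tv (y : M) (U : ℂ) (B : ι × Fin 2 → ℂ) :
    star (Tv m ε a y U B) = Tv m ε a y (star U) (star B) := by
  simp [Tv, star_sum, star_cx, star_onEnd, star_TE]

lemma star_surf (U : M → ℂ) (B : ι × Fin 2 → ℂ) (y : M) :
    star (surf m ε a U B y) = surf m ε a (fun z => star (U z)) (star B) y := star_Phi ..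

lemma star_surf_real {U : M → ℂ} (hU : (U y).im = 0) (hB : star B = B) :
    star (surf m ε a U B y) = surf m ε a U B y := by
  rw [surf, star_Phi, hB, show star (U y) = U y from Complex.conj_eq_iff_im.2 hU]

/-- the normal component of the deformation field is positive -/
lemma nu_Tv_pos (ho : Orient m ε a) (hy : y ∈ m.reg) :
    0 < (cx (m.nu y) ⬝ᵥ Tv m ε a y 0 0).re := by
  have h1 : ∀ {z}, z ∈ m.reg → cx (m.nu z) ⬝ᵥ cx (m.nu z) = 1 := fun hz => by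
    rw [P218GA.cx_dot, real_inner_self_eq_norm_sq, m.norm_nu hz]; simp
  rcases reg_cases m hy with h | ⟨j, p, hp, rfl⟩
  · rw [Tv_below m ε a (Ends.below_of_core h a), h1 hy]; simp
  · rw [Tv_Y0 m ε a j hp, smul_zero, dotProduct_add, dotProduct_smul, dotProduct_smul, h1 hy,
      smul_eq_mul, smul_eq_mul, mul_one, Complex.add_re, Complex.ofReal_re, Complex.re_ofReal_mul]
    rcases le_total p.1 a with h | h
    · rw [st_zero h]; simp
    · have h2 := ho j p h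
      have h3 := st_nonneg a p.1
      have h4 := st_le_one a p.1
      rcases h4.eq_or_lt with h5 | h5
      · rw [h5]; simpa using h2
      · nlinarith [mul_nonneg h3 h2.le]

end Vale.Agent.P218CG
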