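import Vale.Agent.P218CG.Rep

/-! The Euler-Lagrange operator of a family of surfaces as a function of jets. -/

open Set Filter Metric Topology
open scoped ContDiff Matrix RealInnerProductSpace

noncomputable section

set_option linter.unusedSectionVars false
set_option linter.unusedVariables false

namespace Vale.Agent.P218CG

open Vale.Agent.P218CO Vale.Agent.P218VA Vale.Agent.P218MP
open Vale.Agent.P218GA (E3 cx crs grm)

/-- the coordinates of the plane -/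
def crd (i : Fin 2) : E2 →L[ℝ] ℂ := Complex.ofRealCLM.comp (EuclideanSpace.proj i)

lemma crd_apply (i : Fin 2) (v : E2) : crd i v = (v i : ℝ) := rfl

/-- the quadratic polynomial with the jet `j` at `y` -/
def poly (j : J2 ℂ) (y z : E2) : ℂ :=
  j.1.1 + (crd 0 z - crd 0 y) * j.1.2.1 + (crd 1 z - crd 1 y) * j.1.2.2 +
    (crd 0 z - crd 0 y) * (crd 0 z - crd 0 y) * (j.2.1 / 2) +
    (crd 0 z - crd 0 y) * (crd 1 z - crd 1 y) * j.2.2.1 +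
    (crd 1 z - crd 1 y) * (crd 1 z - crd 1 y) * (j.2.2.2 / 2)

lemma contDiff_poly (j : J2 ℂ) (y : E2) {n : WithTop ℕ∞} : ContDiff ℝ n (poly j y) := by
  unfold poly; fun_prop

lemma poly_self (j : J2 ℂ) (y : E2) : poly j y y = j.1.1 := by simp [poly]

lemma poly_zero (y z : E2) : poly 0 y z = 0 := by simp [poly]

lemma star_poly (j : J2 ℂ) (y z : E2) : star (poly j y z) = poly (star j) y z := by
  simp [poly, crd_apply]

lemma pd_poly (j : J2 ℂ) (y v z : E2) : pd (poly j y) v z = crd 0 v * j.1.2.1 + crd 1 v * j.1.2.2 +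
    crd 0 v * (crd 0 z - crd 0 y) * j.2.1 +
    (crd 0 v * (crd 1 z - crd 1 y) + crd 1 v * (crd 0 z - crd 0 y)) * j.2.2.1 +
    crd 1 v * (crd 1 z - crd 1 y) * j.2.2.2 := by
  have h := fun i => ((crd i).hasFDerivAt (x := z)).sub_const (crd i y)
  have k := ((((((h 0).mul_const j.1.2.1).const_add j.1.1).add ((h 1).mul_const j.1.2.2)).add
    (((h 0).mul (h 0)).mul_const (j.2.1 / 2))).add (((h 0).mul (h 1)).mul_const j.2.2.1)).add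
    (((h 1).mul (h 1)).mul_const (j.2.2.2 / 2))
  have k' : HasFDerivAt (poly j y) _ z := k
  rw [pd, k'.fderiv]
  simp
  ring

lemma pd_poly1 (j : J2 ℂ) (y : E2) :
    pd (poly j y) u1 = poly ((j.1.2.1, j.2.1, j.2.2.1), 0) y := by
  funext z; simp [pd_poly, poly, crd_apply, u1]

lemma pd_poly2 (j : J2 ℂ) (y : E2) :
    pd (poly j y) u2 = poly ((j.1.2.2, j.2.2.1, j.2.2.2), 0) y := by
  funext z; simp [pd_poly, poly, crd_apply, u2]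

lemma cj_poly (j : J2 ℂ) (y : E2) : cj u1 u2 (poly j y) y = j := by
  simp only [cj, pd_poly1, pd_poly2, poly_self]

section star
variable {D : Type*} [NormedAddCommGroup D] [NormedSpace ℝ D]

lemma star_pd (f : D → C3) (v x : D) : star (pd f v x) = pd (fun y => star (f y)) v x := by
  unfold pd
  have := (starL' ℝ : C3 ≃L[ℝ] C3).comp_fderiv (f := f) (x := x)
  exact (congrArg (fun L => L v) this).symm

lemma star_pd' {f : D → C3} (h : ∀ y, star (f y) = f y) (v x : D) : star (pd f v x) = pd f v x := by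
  rw [star_pd]; simp only [h]

end star

lemma EL_cx (X a b aa ab bb V : E3) : EL (cx X) (cx a) (cx b) (cx aa) (cx ab) (cx bb) (cx V) =
    (-(P218.H313.rho X * P218GA.PPr X a b aa ab bb (crs a b) / √(grm a b) ^ 3 * ⟪crs a b, V⟫) : ℝ) := by
  rw [EL, P218GA.wt_cx, P218GA.ar_cx, P218GA.cx_PP, ← P218GA.cx_crs, P218GA.cx_dot]
  push_cast
  rfl

lemma im_EL {X a b aa ab bb V : C3} (h0 : star X = X) (h1 : star a = a) (h2 : star b = b)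
    (h3 : star aa = aa) (h4 : star ab = ab) (h5 : star bb = bb) (h6 : star V = V) :
    (EL X a b aa ab bb V).im = 0 := by
  obtain ⟨X, rfl⟩ := exists_cx h0
  obtain ⟨a, rfl⟩ := exists_cx h1
  obtain ⟨b, rfl⟩ := exists_cx h2
  obtain ⟨aa, rfl⟩ := exists_cx h3
  obtain ⟨ab, rfl⟩ := exists_cx h4
  obtain ⟨bb, rfl⟩ := exists_cx h5
  obtain ⟨V, rfl⟩ := exists_cx h6
  rw [EL_cx, Complex.ofReal_im]

lemma im_ELF {D : Type*} [NormedAddCommGroup D] [NormedSpace ℝ D] {d1 d2 x : D} {X : D → C3}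
    {V : C3} (h : ∀ y, star (X y) = X y) (hV : star V = V) : (ELF d1 d2 X x V).im = 0 :=
  im_EL (h x) (star_pd' h _ _) (star_pd' h _ _) (star_pd' (star_pd' h _) _ _)
    (star_pd' (star_pd' h _) _ _) (star_pd' (star_pd' h _) _ _) hV

variable {P : Type} [NormedAddCommGroup P] [NormedSpace ℂ P]

/-- the jet of the surface in terms of the jets of the data and of the function -/
def jTh (Θ : ZZ × ℂ × P → C3) (k : J2 ZZ) (ξ : J2 ℂ × P) : J2 C3 :=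
  jcomp Θ (jzip k (jzip ξ.1 (jconst ξ.2)))

variable {Φ T : E2 → ℂ → P → C3} {g : E2 → ZZ} {Θ Θ' : ZZ × ℂ × P → C3} {y : E2}

lemma cj_Phi {U : E2 → ℂ} {B : P} (hg : ContDiffAt ℝ 2 g y) (hU : ContDiffAt ℝ 2 U y)
    (hΘ : ContDiffAt ℂ 2 Θ (g y, U y, B)) (h : ∀ᶠ z in 𝓝 y, ∀ U B, Φ z U B = Θ (g z, U, B)) :
    cj u1 u2 (fun z => Φ z (U z) B) y = jTh Θ (cj u1 u2 g y) (cj u1 u2 U y, B) := by
  have h1 : (fun z => Φ z (U z) B) =ᶠ[𝓝 y] fun z => Θ (g z, U z, B) := h.mono fun z hz => hz _ _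
  have h2 : ContDiffAt ℝ 2 (fun z => (U z, B)) y := hU.prodMk contDiffAt_const
  rw [cj_congr h1, cj_comp (g := fun z => (g z, U z, B)) hΘ (hg.prodMk h2), jTh]
  congr 1
  have h3 := cj_prod (d1 := u1) (d2 := u2) hg h2
  rw [cj_prod hU contDiffAt_const, cj_const] at h3
  exact h3

/-- the jet of the surface defined by the jet of a function -/
def jX (Φ : E2 → ℂ → P → C3) (y : E2) (ξ : J2 ℂ × P) : J2 C3 :=
  cj u1 u2 (fun z => Φ z (poly ξ.1 y z) ξ.2) y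

lemma jX_eq {ξ : J2 ℂ × P} (hg : ContDiffAt ℝ 2 g y) (hΘ : ContDiffAt ℂ 2 Θ (g y, ξ.1.1.1, ξ.2))
    (h : ∀ᶠ z in 𝓝 y, ∀ U B, Φ z U B = Θ (g z, U, B)) : jX Φ y ξ = jTh Θ (cj u1 u2 g y) ξ := by
  rw [jX, cj_Phi hg (contDiff_poly _ _).contDiffAt (by rwa [poly_self]) h, cj_poly]

lemma jX_cj {U : E2 → ℂ} {B : P} (hg : ContDiffAt ℝ 2 g y) (hU : ContDiffAt ℝ 2 U y)
    (hΘ : ContDiffAt ℂ 2 Θ (g y, U y, B)) (h : ∀ᶠ z in 𝓝 y, ∀ U B, Φ z U B = Θ (g z, U, B)) :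
    jX Φ y (cj u1 u2 U y, B) = cj u1 u2 (fun z => Φ z (U z) B) y := by
  rw [jX_eq (ξ := (cj u1 u2 U y, B)) hg hΘ h, cj_Phi hg hU hΘ h]

lemma contDiffAt_jTh {n : WithTop ℕ∞} {q : J2 ZZ × J2 ℂ × P}
    (hΘ : ContDiffAt ℂ (n + 2) Θ (q.1.1.1, q.2.1.1.1, q.2.2)) :
    ContDiffAt ℂ n (fun r : J2 ZZ × J2 ℂ × P => jTh Θ r.1 r.2) q := by
  refine ContDiffAt.comp (g := jcomp Θ)
    (f := fun r : J2 ZZ × J2 ℂ × P => jzip r.1 (jzip r.2.1 (jconst r.2.2))) q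
    (contDiffAt_jcomp hΘ) ?_
  unfold jzip jconst
  fun_prop

lemma jX_ev {ξ : J2 ℂ × P} (hg : ContDiffAt ℝ 2 g y) (hΘ : ContDiffAt ℂ 2 Θ (g y, ξ.1.1.1, ξ.2))
    (h : ∀ᶠ z in 𝓝 y, ∀ U B, Φ z U B = Θ (g z, U, B)) :
    ∀ᶠ q : E2 × J2 ℂ × P in 𝓝 (y, ξ), jX Φ q.1 q.2 = jTh Θ (cj u1 u2 g q.1) q.2 := by
  have h1 : Tendsto (fun q : E2 × J2 ℂ × P => q.1) (𝓝 (y, ξ)) (𝓝 y) := continuous_fst.tendsto _
  have h2 : ContinuousAt (fun q : E2 × J2 ℂ × P => (g q.1, q.2.1.1.1, q.2.2)) (y, ξ) :=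
    (ContinuousAt.comp (g := g) hg.continuousAt continuousAt_fst).prodMk (by fun_prop)
  filter_upwards [h1.eventually (hg.eventually (by simp)), h1.eventually h.eventually_nhds,
    h2.eventually (hΘ.eventually (by simp))] with q k1 k2 k3
  exact jX_eq k1 k3 k2

lemma mix_jX {ξ : J2 ℂ × P} (hg : ContDiffAt ℝ 3 g y) (hΘ : ContDiffAt ℂ 3 Θ (g y, ξ.1.1.1, ξ.2))
    (h : ∀ᶠ z in 𝓝 y, ∀ U B, Φ z U B = Θ (g z, U, B)) :
    Mix (fun q : E2 × J2 ℂ × P => jX Φ q.1 q.2) (y, ξ) := by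
  refine Mix.congr ?_ (jX_ev (hg.of_le (by norm_num)) (hΘ.of_le (by norm_num)) h)
  have h1 : ContDiffAt ℝ 1 (cj u1 u2 g) y := contDiffAt_cj (by exact_mod_cast hg)
  exact ((Mix.fst (p := (y, ξ)) h1).prodMk Mix.snd).comp
    (Θ := fun r : J2 ZZ × J2 ℂ × P => jTh Θ r.1 r.2) (contDiffAt_jTh (by exact_mod_cast hΘ))

lemma mix_T {ξ : J2 ℂ × P} (hg : ContDiffAt ℝ 1 g y) (hΘ : ContDiffAt ℂ 1 Θ' (g y, ξ.1.1.1, ξ.2))
    (h : ∀ᶠ z in 𝓝 y, ∀ U B, T z U B = Θ' (g z, U, B)) :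
    Mix (fun q : E2 × J2 ℂ × P => T q.1 q.2.1.1.1 q.2.2) (y, ξ) := by
  have h1 : Tendsto (fun q : E2 × J2 ℂ × P => q.1) (𝓝 (y, ξ)) (𝓝 y) := continuous_fst.tendsto _
  refine Mix.congr ?_ ((h1.eventually h).mono fun q hq => hq _ _)
  exact ((Mix.fst (p := (y, ξ)) hg).prodMk (Mix.snd.comp
    (Θ := fun r : J2 ℂ × P => (r.1.1.1, r.2)) (by fun_prop))).comp hΘ

/-- changing the Hessian of the function changes the Hessian of the surface -/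
lemma jTh_hess (k : J2 ZZ) (j : T3 ℂ) (B : P) (H : T3 ℂ) :
    jTh Θ k ((j, H), B) = jTh Θ k ((j, 0), B) +
      (0, (H.1 • fderiv ℂ Θ (k.1.1, j.1, B) (0, 1, 0), H.2.1 • fderiv ℂ Θ (k.1.1, j.1, B) (0, 1, 0),
        H.2.2 • fderiv ℂ Θ (k.1.1, j.1, B) (0, 1, 0))) := by
  have h : ∀ (z : ZZ) (c : ℂ), fderiv ℂ Θ (k.1.1, j.1, B) (z, c, 0) =
      fderiv ℂ Θ (k.1.1, j.1, B) (z, 0, 0) + c • fderiv ℂ Θ (k.1.1, j.1, B) (0, 1, 0) := by
    intro z c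
    rw [← map_smul, ← map_add]
    simp
  simp only [jTh, jcomp, jzip, jconst, Prod.mk_add_mk, Prod.fst_zero, Prod.snd_zero, add_zero,
    h _ H.1, h _ H.2.1, h _ H.2.2, add_assoc]

lemma contDiffAt_ELj {n : WithTop ℕ∞} {q : J2 C3 × C3} (h : gramj q.1 ∈ Complex.slitPlane) :
    ContDiffAt ℂ n (fun r : J2 C3 × C3 => ELj r.1 r.2) q :=
  contDiffAt_EL (by fun_prop) (by fun_prop) (by fun_prop) (by fun_prop) (by fun_prop)
    (by fun_prop) (by fun_prop) h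

lemma ELj_hess (j : J2 C3) (H : T3 ℂ) (V W : C3) :
    ELj (j + (0, (H.1 • V, H.2.1 • V, H.2.2 • V))) W = ELj j W -
      wt j.1.1 * ((j.1.2.2 ⬝ᵥ j.1.2.2) * H.1 - 2 * (j.1.2.1 ⬝ᵥ j.1.2.2) * H.2.1 +
        (j.1.2.1 ⬝ᵥ j.1.2.1) * H.2.2) * (j.1.2.1 ⨯₃ j.1.2.2 ⬝ᵥ V) / ar j.1.2.1 j.1.2.2 ^ 3 *
        (j.1.2.1 ⨯₃ j.1.2.2 ⬝ᵥ W) := by
  simp only [ELj, EL, PP, Prod.fst_add, Prod.snd_add, add_zero, add_dotProduct, smul_dotProduct,
    smul_eq_mul, dotProduct_comm V]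
  ring

lemma symb_pos {a b : E3} (h : 0 < grm a b) {s t : ℝ} (hst : (s, t) ≠ 0) :
    0 < ⟪b, b⟫ * (s * s) - 2 * ⟪a, b⟫ * (s * t) + ⟪a, a⟫ * (t * t) := by
  have h1 : 0 ≤ ⟪a, a⟫ := real_inner_self_nonneg
  have h2 : 0 ≤ ⟪b, b⟫ := real_inner_self_nonneg
  unfold grm at h
  have h3 : 0 < ⟪a, a⟫ := h1.lt_of_ne fun e => by rw [← e] at h; nlinarith [sq_nonneg ⟪a, b⟫]
  have h4 : ⟪a, a⟫ * (⟪b, b⟫ * (s * s) - 2 * ⟪a, b⟫ * (s * t) + ⟪a, a⟫ * (t * t)) =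
      (⟪a, a⟫ * t - ⟪a, b⟫ * s) ^ 2 + (⟪a, a⟫ * ⟪b, b⟫ - ⟪a, b⟫ ^ 2) * s ^ 2 := by ring
  refine (mul_pos_iff_of_pos_left h3).1 ?_
  rw [h4]
  by_cases hs : s = 0
  · have ht : t ≠ 0 := fun e => hst (by simp [hs, e])
    rw [hs]
    simp only [mul_zero, sub_zero]
    positivity
  · positivity

end Vale.Agent.P218CG
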