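import Vale.Agent.P218CG.Jet

/-! The geometric operator in charts. -/

open Set Filter Metric Topology
open scoped ContDiff Matrix RealInnerProductSpace

noncomputable section

set_option linter.unusedSectionVars false
set_option linter.unusedVariables false

namespace Vale.Agent.P218CG

open Vale.Agent.P218CO Vale.Agent.P218VA Vale.Agent.P218MP Vale.Agent.P272.K.LIN
open Vale.Agent.P218GA (Model E3 cx crs grm)

variable {S : Set E3} {w : E3 → ℝ} {δ C : ℝ} {ι κ M : Type} [TopologicalSpace M]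
  [ChartedSpace E2 M] (m : Model S w δ C ι κ M) (ε : ι ⊕ κ → Bool) [Fintype ι] [Fintype κ] (a : ℝ)

/-- the jet of the surface in the chart `e` -/
def jS (e : OpenPartialHomeomorph M E2) (y : E2) (ξ : J2 ℂ × (ι × Fin 2 → ℂ)) : J2 C3 :=
  jX (fun z => Phi m ε a (e.symm z)) y ξ

/-- the geometric operator on jets in the chart `e` -/
def geoNj (e : OpenPartialHomeomorph M E2) (y : E2) (ξ : J2 ℂ × (ι × Fin 2 → ℂ)) : ℂ :=
  -ELj (jS m ε a e y ξ) (Tv m ε a (e.symm y) ξ.1.1.1 ξ.2) /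
    LagF u1 u2 (cX e fun z => cx (m.F z)) y

variable {a} [T2Space M] [RSm E2 M] {e : OpenPartialHomeomorph M E2} {x : M}

lemma grm_F (he : e ∈ atlas E2 M) (hxe : x ∈ e.source) (hx : x ∈ m.reg) :
    0 < grm (pd (cX e m.F) u1 (e x)) (pd (cX e m.F) u2 (e x)) :=
  P218GA.grm_pos (m.rimm.inj x hx e he hxe) P218GA.indep_u

lemma imm_F (hx : x ∈ m.reg) : Imm (fun z => cx (m.F z)) x := by
  refine ⟨fun e he hxe => cx.contDiff.contDiffAt.comp _ (m.rimm.ck x hx e he hxe),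
    fun e he hxe => ?_⟩
  have h1 := P218GA.gramF_cx ((m.rimm.ck x hx e he hxe).differentiableAt (by simp)) u1 u2
  rw [show cX e (fun z => cx (m.F z)) = fun z => cx (cX e m.F z) from rfl, h1]
  exact Complex.ofReal_mem_slitPlane.2 (grm_F m he hxe hx)

lemma lag_F (he : e ∈ atlas E2 M) (hxe : x ∈ e.source) (hx : x ∈ m.reg) :
    LagF u1 u2 (cX e fun z => cx (m.F z)) (e x) = (P218GA.lagR u1 u2 (cX e m.F) (e x) : ℝ) :=
  P218GA.LagF_cx ((m.rimm.ck x hx e he hxe).differentiableAt (by simp)) u1 u2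

lemma lag_F_pos (he : e ∈ atlas E2 M) (hxe : x ∈ e.source) (hx : x ∈ m.reg) :
    0 < P218GA.lagR u1 u2 (cX e m.F) (e x) :=
  mul_pos (P218.H313.rho_pos _) (Real.sqrt_pos.2 (grm_F m he hxe hx))

/-- the representation read in a chart -/
lemma exists_rep_chart (ha : m.w0 < a) (he : e ∈ atlas E2 M) (hxe : x ∈ e.source)
    (hx : x ∈ m.reg) : ∃ (g : E2 → ZZ) (Θ Θ' : ZZ × ℂ × (ι × Fin 2 → ℂ) → C3),
      ContDiffAt ℝ ∞ g (e x) ∧
      (∀ᶠ z in 𝓝 (e x), ∀ U B, Phi m ε a (e.symm z) U B = Θ (g z, U, B)) ∧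
      (∀ᶠ z in 𝓝 (e x), ∀ U B, Tv m ε a (e.symm z) U B = Θ' (g z, U, B)) ∧
      ∀ U B, |U.im| < 1 → ‖B‖ ≤ 1 → ∀ n, ContDiffAt ℂ n Θ (g (e x), U, B) ∧
        ContDiffAt ℂ n Θ' (g (e x), U, B) := by
  obtain ⟨c, Θ, Θ', h⟩ := exists_rep m ε ha hx
  refine ⟨cX e c, Θ, Θ', h.ck e he hxe, (P218VA.tendsto_symm hxe).eventually h.eq,
    (P218VA.tendsto_symm hxe).eventually h.eq', fun U B h1 h2 n => ?_⟩
  rw [show cX e c (e x) = c x by rw [cX, e.left_inv hxe]]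
  exact ⟨h.hol U B h1 h2 n, h.hol' U B h1 h2 n⟩

/-- the jet of the surface depends only on the jet of the function -/
theorem jS_cj (ha : m.w0 < a) (he : e ∈ atlas E2 M) (hxe : x ∈ e.source) (hx : x ∈ m.reg)
    {U : M → ℂ} {B : ι × Fin 2 → ℂ} (hU : CkAt 2 U x) (h1 : |(U x).im| < 1) (h2 : ‖B‖ ≤ 1) :
    jS m ε a e (e x) (cj u1 u2 (cX e U) (e x), B) = cj u1 u2 (cX e (surf m ε a U B)) (e x) := by
  obtain ⟨g, Θ, Θ', hg, k1, -, k3⟩ := exists_rep_chart m ε ha he hxe hx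
  exact jX_cj (hg.of_le P218VA.two_le_inf) (hU e he hxe)
    (k3 _ _ (by simpa only [cX, e.left_inv hxe] using h1) h2 2).1 k1

theorem jS_zero (hxe : x ∈ e.source) (hx : x ∈ m.reg) :
    jS m ε a e (e x) 0 = cj u1 u2 (cX e fun z => cx (m.F z)) (e x) := by
  refine cj_congr (f := fun z => Phi m ε a (e.symm z) (poly 0 (e x) z) 0) ?_
  filter_upwards [(P218VA.tendsto_symm hxe).eventually (m.isOpen_reg.mem_nhds hx)] with z hz
  rw [poly_zero, Phi_zero m ε a hz, cX]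

theorem mix_jS (ha : m.w0 < a) (he : e ∈ atlas E2 M) (hxe : x ∈ e.source) (hx : x ∈ m.reg)
    {ξ : J2 ℂ × (ι × Fin 2 → ℂ)} (h1 : |ξ.1.1.1.im| < 1) (h2 : ‖ξ.2‖ ≤ 1) :
    Mix (fun q : E2 × J2 ℂ × (ι × Fin 2 → ℂ) => jS m ε a e q.1 q.2) (e x, ξ) := by
  obtain ⟨g, Θ, Θ', hg, k1, -, k3⟩ := exists_rep_chart m ε ha he hxe hx
  exact mix_jX (hg.of_le (by norm_cast)) (k3 _ _ h1 h2 3).1 k1

theorem mix_Tv (ha : m.w0 < a) (he : e ∈ atlas E2 M) (hxe : x ∈ e.source) (hx : x ∈ m.reg)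
    {ξ : J2 ℂ × (ι × Fin 2 → ℂ)} (h1 : |ξ.1.1.1.im| < 1) (h2 : ‖ξ.2‖ ≤ 1) :
    Mix (fun q : E2 × J2 ℂ × (ι × Fin 2 → ℂ) => Tv m ε a (e.symm q.1) q.2.1.1.1 q.2.2)
      (e x, ξ) := by
  obtain ⟨g, Θ, Θ', hg, -, k2, k3⟩ := exists_rep_chart m ε ha he hxe hx
  exact mix_T (T := fun z => Tv m ε a (e.symm z)) (hg.of_le (by norm_cast)) (k3 _ _ h1 h2 1).2 k2

theorem jS_hess (ha : m.w0 < a) (he : e ∈ atlas E2 M) (hxe : x ∈ e.source) (hx : x ∈ m.reg)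
    {j : T3 ℂ} {B : ι × Fin 2 → ℂ} (h1 : |j.1.im| < 1) (h2 : ‖B‖ ≤ 1) (H : T3 ℂ) :
    jS m ε a e (e x) ((j, H), B) = jS m ε a e (e x) ((j, 0), B) +
      (0, (H.1 • Tv m ε a x j.1 B, H.2.1 • Tv m ε a x j.1 B, H.2.2 • Tv m ε a x j.1 B)) := by
  obtain ⟨g, Θ, Θ', hg, k1, -, k3⟩ := exists_rep_chart m ε ha he hxe hx
  have h3 := (k3 _ _ h1 h2 2).1
  have h4 : fderiv ℂ Θ (g (e x), j.1, B) (0, 1, 0) = Tv m ε a x j.1 B := by
    have h5 : HasDerivAt (fun U : ℂ => (g (e x), U, B)) (0, 1, 0) j.1 :=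
      (hasDerivAt_const _ _).prodMk ((hasDerivAt_id _).prodMk (hasDerivAt_const _ _))
    have h6 := (h3.differentiableAt (by simp)).hasFDerivAt.comp_hasDerivAt j.1 h5
    refine h6.unique ((hasDerivAt_Phi m ε a hx h1 B).congr_of_eventuallyEq
      (Eventually.of_forall fun U => ?_))
    have := k1.self_of_nhds U B
    rw [e.left_inv hxe] at this
    exact this.symm
  have hg2 := hg.of_le P218VA.two_le_inf
  rw [jS, jS, jX_eq (ξ := ((j, H), B)) hg2 h3 k1, jX_eq (ξ := ((j, 0), B)) hg2 h3 k1, jTh_hess, ← h4]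
  rfl

theorem geoNj_chart (ha : m.w0 < a) (he : e ∈ atlas E2 M) (hxe : x ∈ e.source) (hx : x ∈ m.reg)
    {U : M → ℂ} {B : ι × Fin 2 → ℂ} (hU : CkAt 2 U x) (h1 : |(U x).im| < 1) (h2 : ‖B‖ ≤ 1) :
    geoN m ε a U B x = geoNj m ε a e (e x) (cj u1 u2 (cX e U) (e x), B) := by
  have h3 := ELM_chart (imm_F m hx) (ckAt_surf' m ε ha hx P218VA.two_le_inf hU h1 h2) he hxe
    (Tv m ε a x (U x) B)
  rw [geoNj, jS_cj m ε ha he hxe hx hU h1 h2, eq_div_iff ((imm_F m hx).lag_ne he hxe), geoN,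
    neg_mul, h3, ELF_eq, e.left_inv hxe]
  simp only [cj, cX, e.left_inv hxe]

theorem geoNj_mix (ha : m.w0 < a) (he : e ∈ atlas E2 M) (hxe : x ∈ e.source) (hx : x ∈ m.reg) :
    Mix (fun q : E2 × J2 ℂ × (ι × Fin 2 → ℂ) => geoNj m ε a e q.1 q.2) (e x, 0) := by
  have hF := imm_F m hx
  have h1 := mix_jS m ε ha he hxe hx (ξ := 0) (by simp) (by simp)
  have h2 := mix_Tv m ε ha he hxe hx (ξ := 0) (by simp) (by simp)
  have h3 := (h1.prodMk h2).comp (Θ := fun r : J2 C3 × C3 => ELj r.1 r.2) (contDiffAt_ELj (by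
    show gramj (jS m ε a e (e x) 0) ∈ _
    rw [jS_zero m ε hxe hx]
    exact hF.slit e he hxe))
  have h4 := hF.ck e he hxe
  have h5 : ContDiffAt ℝ 1 (LagF u1 u2 (cX e fun z => cx (m.F z))) (e x) :=
    contDiffAt_Lag (h4.of_le (by norm_num)) (contDiffAt_pd2 h4 _) (contDiffAt_pd2 h4 _)
      (hF.slit e he hxe)
  exact (h3.prodMk (Mix.fst h5)).comp (Θ := fun r : ℂ × ℂ => -r.1 / r.2)
    (contDiffAt_fst.neg.div contDiffAt_snd (hF.lag_ne he hxe))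

theorem geoNj_base (he : e ∈ atlas E2 M) (hxe : x ∈ e.source) (hx : x ∈ m.reg) :
    geoNj m ε a e (e x) 0 = 0 := by
  have h : ∀ W, ELj (cj u1 u2 (cX e fun z => cx (m.F z)) (e x)) W = 0 :=
    EL_of_PP (m.PPF_chart he hx hxe)
  rw [geoNj, jS_zero m ε hxe hx, h, neg_zero, zero_div]

theorem geoNj_real (he : e ∈ atlas E2 M) (hxe : x ∈ e.source) (hx : x ∈ m.reg)
    {ξ : J2 ℂ × (ι × Fin 2 → ℂ)} (h : star ξ = ξ) : (geoNj m ε a e (e x) ξ).im = 0 := by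
  have h1 : star ξ.1 = ξ.1 := congrArg Prod.fst h
  have h2 : star ξ.2 = ξ.2 := congrArg Prod.snd h
  have h3 : star ξ.1.1.1 = ξ.1.1.1 := congrArg (fun j : J2 ℂ => j.1.1) h1
  have h4 : (ELj (jS m ε a e (e x) ξ) (Tv m ε a (e.symm (e x)) ξ.1.1.1 ξ.2)).im = 0 :=
    im_ELF (d1 := u1) (d2 := u2) (X := fun z => Phi m ε a (e.symm z) (poly ξ.1 (e x) z) ξ.2)
      (fun z => by rw [star_Phi, star_poly, h1, h2]) (by rw [star_Tv, h2, h3])
  rw [geoNj, lag_F m he hxe hx, Complex.div_ofReal_im, Complex.neg_im, h4, neg_zero, zero_div]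

/-- the principal symbol -/
theorem geoNj_hess (ha : m.w0 < a) (ho : Orient m ε a) (he : e ∈ atlas E2 M) (hxe : x ∈ e.source)
    (hx : x ∈ m.reg) : ∃ c : ℝ, 0 < c ∧ ∀ H : T3 ℂ, geoNj m ε a e (e x) ((0, H), 0) =
      c * ((⟪pd (cX e m.F) u2 (e x), pd (cX e m.F) u2 (e x)⟫ : ℝ) * H.1 -
        2 * (⟪pd (cX e m.F) u1 (e x), pd (cX e m.F) u2 (e x)⟫ : ℝ) * H.2.1 +
        (⟪pd (cX e m.F) u1 (e x), pd (cX e m.F) u1 (e x)⟫ : ℝ) * H.2.2) := by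
  have hd := (m.rimm.ck x hx e he hxe).differentiableAt (by simp)
  have hg := grm_F m he hxe hx
  obtain ⟨V, hV⟩ := exists_cx (v := Tv m ε a x 0 0) (by rw [star_Tv, star_zero, star_zero])
  have h1 := nu_Tv_pos m ε a ho hx
  rw [← hV, P218GA.cx_dot, Complex.ofReal_re] at h1
  have h2 := P218GA.crs_par (m.norm_nu hx) (m.inner_nu_pd he hx hxe u1) (m.inner_nu_pd he hx hxe u2)
  have h3 := P218GA.sq_inner_crs (m.norm_nu hx) (m.inner_nu_pd he hx hxe u1)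
    (m.inner_nu_pd he hx hxe u2)
  have hL := lag_F_pos m he hxe hx
  have hb := m.PPF_chart he hx hxe
  set A := pd (cX e m.F) u1 (e x) with hA
  set B := pd (cX e m.F) u2 (e x) with hB
  have h4 : ⟪crs A B, V⟫ ≠ 0 := by
    rw [h2, real_inner_smul_left]
    exact mul_ne_zero (fun h => hg.ne' (by rw [← h3, h]; ring)) h1.ne'
  have hr := P218.H313.rho_pos (cX e m.F (e x))
  have hs := Real.sqrt_pos.2 hg
  refine ⟨P218.H313.rho (cX e m.F (e x)) * ⟪crs A B, V⟫ ^ 2 / √(grm A B) ^ 3 /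
    P218GA.lagR u1 u2 (cX e m.F) (e x), by positivity, fun H => ?_⟩
  have e1 : (cj u1 u2 (cX e fun z => cx (m.F z)) (e x)).1 = (cx (cX e m.F (e x)), cx A, cx B) :=
    Prod.ext rfl (Prod.ext (P218GA.pd_cx hd u1) (P218GA.pd_cx hd u2))
  have e2 : ∀ W, ELj (cj u1 u2 (cX e fun z => cx (m.F z)) (e x)) W = 0 := EL_of_PP hb
  rw [geoNj, jS_hess m ε ha he hxe hx (by simp) (by simp),
    show (((0 : T3 ℂ), (0 : T3 ℂ)), (0 : ι × Fin 2 → ℂ)) = 0 from rfl, jS_zero m ε hxe hx,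
    ELj_hess, e2, e1, e.left_inv hxe, lag_F m he hxe hx]
  simp only [Prod.fst_zero, ← hV, ← P218GA.cx_crs, P218GA.cx_dot, P218GA.wt_cx, P218GA.ar_cx]
  push_cast
  ring

theorem geoNj_ell (ha : m.w0 < a) (ho : Orient m ε a) (he : e ∈ atlas E2 M) (hxe : x ∈ e.source)
    (hx : x ∈ m.reg) {s t : ℝ} (hst : (s, t) ≠ 0) :
    0 < (fderiv ℂ (geoNj m ε a e (e x)) 0 ((0, ((s * s : ℝ), (s * t : ℝ), (t * t : ℝ))), 0)).re := by
  obtain ⟨c, hc, h⟩ := geoNj_hess m ε ha ho he hxe hx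
  have hd : DifferentiableAt ℂ (geoNj m ε a e (e x)) 0 := (geoNj_mix m ε ha he hxe hx).hol.self_of_nhds
  have hp := symb_pos (grm_F m he hxe hx) hst
  set H : T3 ℂ := ((s * s : ℝ), (s * t : ℝ), (t * t : ℝ)) with hH
  have h1 := hd.hasFDerivAt.hasLineDerivAt ((0, H), 0)
  have h2 : HasDerivAt (fun r : ℂ => geoNj m ε a e (e x) (0 + r • ((0, H), 0)))
      (geoNj m ε a e (e x) ((0, H), 0)) 0 := by
    have h3 : (fun r : ℂ => geoNj m ε a e (e x) (0 + r • ((0, H), 0))) =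
        fun r => r * geoNj m ε a e (e x) ((0, H), 0) := by
      funext r
      rw [zero_add, Prod.smul_mk, Prod.smul_mk, smul_zero, smul_zero, h, h]
      simp only [Prod.smul_fst, Prod.smul_snd, smul_eq_mul]
      ring
    rw [h3]
    exact hasDerivAt_mul_const _
  rw [HasDerivAt.unique h1 h2, h, hH]
  dsimp only
  norm_cast
  exact mul_pos hc hp

/-- **The geometric operator in charts.** -/
theorem exists_Nj (ha : m.w0 < a) (ho : Orient m ε a) : ∃ Nj, ∀ op G,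
    (∀ e ∈ atlas E2 M, ∀ x ∈ e.source, x ∈ (geoOp m ε a op Nj G).𝓔.reg → ∀ U B, CkAt 2 U x →
      ‖U x‖ < 1 → ‖B‖ < 1 → (geoOp m ε a op Nj G).N U B x =
        (geoOp m ε a op Nj G).Nj e (e x) (cj u1 u2 (cX e U) (e x), B)) ∧
    (∀ e ∈ atlas E2 M, ∀ x ∈ e.source, x ∈ (geoOp m ε a op Nj G).𝓔.reg →
      Mix (fun q : E2 × (J2 ℂ × (ι × Fin 2 → ℂ)) => (geoOp m ε a op Nj G).Nj e q.1 q.2) (e x, 0)) ∧
    (∀ e ∈ atlas E2 M, ∀ x ∈ e.source, x ∈ (geoOp m ε a op Nj G).𝓔.reg →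
      (geoOp m ε a op Nj G).Nj e (e x) 0 = 0) ∧
    (∀ e ∈ atlas E2 M, ∀ x ∈ e.source, x ∈ (geoOp m ε a op Nj G).𝓔.reg → ∀ ξ, star ξ = ξ →
      ((geoOp m ε a op Nj G).Nj e (e x) ξ).im = 0) ∧
    ∀ e ∈ atlas E2 M, ∀ x ∈ e.source, x ∈ (geoOp m ε a op Nj G).𝓔.reg → ∀ s t : ℝ, (s, t) ≠ 0 →
      0 < (fderiv ℂ ((geoOp m ε a op Nj G).Nj e (e x)) 0
        ((0, ((s * s : ℝ), (s * t : ℝ), (t * t : ℝ))), 0)).re :=
  ⟨geoNj m ε a, fun _ _ => ⟨fun _ he _ hxe hx _ _ hU h1 h2 =>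
    geoNj_chart m ε ha he hxe hx hU (im_lt h1) h2.le,
    fun _ he _ hxe hx => geoNj_mix m ε ha he hxe hx, fun _ he _ hxe hx => geoNj_base m ε he hxe hx,
    fun _ he _ hxe hx _ h => geoNj_real m ε he hxe hx h,
    fun _ he _ hxe hx _ _ h => geoNj_ell m ε ha ho he hxe hx h⟩⟩

/-- assembly of the hypotheses from the fields which concern the ends -/
theorem good_of_ends (ha : m.w0 < a) (ho : Orient m ε a) {op : ι ⊕ κ → EndOp}
    {G : ι ⊕ κ → ℝ × ℝ → T3 ℂ → ℂ} {s : ℝ} (hs : m.w0 < s)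
    (h1 : ∀ j (p : ℝ × ℝ), s + 2 ≤ p.1 → ∀ U B, CkAt 2 U ((ends m).Y j p) →
      ‖U ((ends m).Y j p)‖ < 1 → ‖B‖ < 1 → geoN m ε a U B ((ends m).Y j p) =
        G j p (pj (fun q => U ((ends m).Y j q)) p).1 *
          ((op j).orient (ε j)).E p (pj (fun q => U ((ends m).Y j q)) p))
    (h2 : ∀ j (p : ℝ × ℝ), s + 2 ≤ p.1 →
      ContinuousAt (fun q : (ℝ × ℝ) × T3 ℂ => G j q.1 q.2) (p, 0))
    (h3 : ∀ j (p : ℝ × ℝ), s + 2 ≤ p.1 → 0 < (G j p 0).re)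
    (h4 : ∀ j, ((op j).orient (ε j)).Good s) : (geoOp m ε a op (geoNj m ε a) G).Good s :=
  ⟨hs, fun _ he _ hxe hx _ _ hU k1 k2 => geoNj_chart m ε ha he hxe hx hU (im_lt k1) k2.le,
    fun _ he _ hxe hx => geoNj_mix m ε ha he hxe hx, fun _ he _ hxe hx => geoNj_base m ε he hxe hx,
    fun _ he _ hxe hx _ h => geoNj_real m ε he hxe hx h,
    fun _ he _ hxe hx _ _ h => geoNj_ell m ε ha ho he hxe hx h, h1, h2, h3, h4⟩

end Vale.Agent.P218CG
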