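import Vale.Agent.P218CG.Basic

/-! The configuration map is locally a holomorphic function of smooth data. -/

open Set Filter Metric Topology
open scoped ContDiff Matrix

noncomputable section

set_option linter.unusedSectionVars false
set_option linter.unusedVariables false

namespace Vale.Agent.P218CG

open Vale.Agent.P218CO Vale.Agent.P218VA Vale.Agent.P218MP Vale.Agent.P272.K.LIN
open Vale.Agent.P218GA (Model E3 cx mat mat_orth cx_isometry)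
open Vale.Agent.P218XI (Frame cylF coneF kap co si d1 rt)

/-- the data at a point -/
abbrev ZZ : Type := (Fin 4 → C3) × (Fin 6 → ℂ)

section Th
variable {P : Type} [NormedAddCommGroup P] [NormedSpace ℂ P]

/-- the angular coordinate -/
def tt (s : ℂ) (q : ZZ × ℂ × P) : ℂ := q.1.2 3 * (q.1.2 4 + s * q.2.1)

/-- the configuration map in terms of the data -/
def Th (R : P → Matrix (Fin 3) (Fin 3) ℂ) (s : ℂ) (q : ZZ × ℂ × P) : C3 :=
  q.1.2 0 • (q.1.1 0 + q.2.1 • q.1.1 1) + q.1.2 1 • (R (q.1.2 5 • q.2.2) *ᵥ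
    ((2 * q.1.2 2) • (co (tt s q) • q.1.1 2 + si (tt s q) • q.1.1 3)))

/-- its derivative -/
def Th' (R : P → Matrix (Fin 3) (Fin 3) ℂ) (s : ℂ) (q : ZZ × ℂ × P) : C3 :=
  q.1.2 0 • q.1.1 1 + q.1.2 1 • ((q.1.2 3 * s) • R (q.1.2 5 • q.2.2) *ᵥ
    ((2 * q.1.2 2 * d1 (tt s q) 1) • (co (tt s q) • q.1.1 3 - si (tt s q) • q.1.1 2)))

variable {R : P → Matrix (Fin 3) (Fin 3) ℂ} {s : ℂ} {q : ZZ × ℂ × P} {n : WithTop ℕ∞}

lemma contDiff_tt : ContDiff ℂ n (tt s : ZZ × ℂ × P → ℂ) := by unfold tt; fun_prop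

lemma contDiffAt_Th (hR : ∀ i k, ContDiffAt ℂ n (fun B => R B i k) (q.1.2 5 • q.2.2))
    (h : 1 + tt s q ^ 2 ≠ 0) : ContDiffAt ℂ n (Th R s) q ∧ ContDiffAt ℂ n (Th' R s) q := by
  have ht : ContDiffAt ℂ n (tt s) q := contDiff_tt.contDiffAt
  have hl : ContDiffAt ℂ n (fun z : ZZ × ℂ × P => 1 + tt s z ^ 2) q :=
    contDiffAt_const.add (ht.pow 2)
  have hc : ContDiffAt ℂ n (fun z : ZZ × ℂ × P => co (tt s z)) q :=
    (contDiffAt_const.sub (ht.pow 2)).div hl h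
  have hs : ContDiffAt ℂ n (fun z : ZZ × ℂ × P => si (tt s z)) q :=
    (contDiffAt_const.mul ht).div hl h
  have hd : ContDiffAt ℂ n (fun z : ZZ × ℂ × P => d1 (tt s z) 1) q := contDiffAt_const.div hl h
  have h1 : ∀ i, ContDiffAt ℂ n (fun z : ZZ × ℂ × P => z.1.1 i) q := fun i => by fun_prop
  have h2 : ∀ i, ContDiffAt ℂ n (fun z : ZZ × ℂ × P => z.1.2 i) q := fun i => by fun_prop
  have h3 : ∀ i k, ContDiffAt ℂ n (fun z : ZZ × ℂ × P => R (z.1.2 5 • z.2.2) i k) q := fun i k =>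
    ContDiffAt.comp (g := fun B => R B i k) (f := fun z : ZZ × ℂ × P => z.1.2 5 • z.2.2) q
      (hR i k) (by fun_prop)
  have h4 : ContDiffAt ℂ n (fun z : ZZ × ℂ × P => z.2.1) q := by fun_prop
  have h5 : ContDiffAt ℂ n (fun z : ZZ × ℂ × P => 2 * z.1.2 2) q := contDiffAt_const.mul (h2 2)
  have h6 : ContDiffAt ℂ n (fun z : ZZ × ℂ × P => z.1.2 3 * s) q := (h2 3).mul contDiffAt_const
  have k1 := contDiffAt_mulVec h3 (contDiffAt_csmul h5
    ((contDiffAt_csmul hc (h1 2)).add (contDiffAt_csmul hs (h1 3))))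
  have k2 := contDiffAt_mulVec h3 (contDiffAt_csmul (h5.mul hd)
    ((contDiffAt_csmul hc (h1 3)).sub (contDiffAt_csmul hs (h1 2))))
  have k3 := (contDiffAt_csmul (h2 0) ((h1 0).add (contDiffAt_csmul h4 (h1 1)))).add
    (contDiffAt_csmul (h2 1) k1)
  have k4 := (contDiffAt_csmul (h2 0) (h1 1)).add
    (contDiffAt_csmul (h2 1) (contDiffAt_csmul h6 k2))
  exact ⟨k3, k4⟩

end Th

lemma hasDerivAt_X (F : Frame) (w θ : ℝ) {t : ℂ} (h : 1 + t ^ 2 ≠ 0) :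
    HasDerivAt (F.X w θ) (F.Xt w θ t) t := by
  have hl : HasDerivAt (fun t : ℂ => 1 + t ^ 2) (2 * t) t := by
    simpa using (hasDerivAt_pow 2 t).const_add 1
  have hc : HasDerivAt co (-(si t * d1 t 1)) t := by
    refine (((hasDerivAt_pow 2 t).const_sub 1).div hl h).congr_deriv ?_
    simp only [si, d1]
    field_simp
    push_cast
    ring
  have hs : HasDerivAt si (co t * d1 t 1) t := by
    refine (((hasDerivAt_id t).const_mul 2).div hl h).congr_deriv ?_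
    simp only [co, d1, id]
    field_simp
    ring
  have : F.X w θ = fun t => (2 * rt w) • (co t • F.γ θ + si t • F.n θ) :=
    funext fun t => F.X_eq w θ t
  rw [this, Xt_eq]
  refine (((hc.smul_const (F.γ θ)).add (hs.smul_const (F.n θ))).const_smul
    (2 * rt w)).congr_deriv ?_
  rw [Frame.v]
  module

section Rep
variable {M : Type} [TopologicalSpace M] [ChartedSpace E2 M]
  {P : Type} [NormedAddCommGroup P] [NormedSpace ℂ P]

/-- A local representation of `Φ` and `T` by holomorphic functions of smooth data. -/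
structure Rep (Φ T : M → ℂ → P → C3) (x : M) (c : M → ZZ) (Θ Θ' : ZZ × ℂ × P → C3) : Prop where
  ck : CkAt ∞ c x
  eq : ∀ᶠ y in 𝓝 x, ∀ U B, Φ y U B = Θ (c y, U, B)
  eq' : ∀ᶠ y in 𝓝 x, ∀ U B, T y U B = Θ' (c y, U, B)
  hol : ∀ U B, |U.im| < 1 → ‖B‖ ≤ 1 → ∀ n, ContDiffAt ℂ n Θ (c x, U, B)
  hol' : ∀ U B, |U.im| < 1 → ‖B‖ ≤ 1 → ∀ n, ContDiffAt ℂ n Θ' (c x, U, B)

variable {Φ T : M → ℂ → P → C3} {x : M} {c : M → ZZ} {Θ Θ' : ZZ × ℂ × P → C3}

lemma Rep.swap (h : Rep Φ T x c Θ Θ') : Rep T Φ x c Θ' Θ := ⟨h.ck, h.eq', h.eq, h.hol', h.hol⟩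

/-- joint smoothness in a chart -/
lemma Rep.contDiffAt (h : Rep Φ T x c Θ Θ') {H : Type*} [NormedAddCommGroup H] [NormedSpace ℝ H]
    {k : WithTop ℕ∞} (hk : k ≤ ∞) {e : OpenPartialHomeomorph M E2} (he : e ∈ atlas E2 M)
    (hx : x ∈ e.source) {Y : H → E2} {U : H → ℂ} {B : H → P} {z : H} (hz : Y z = e x)
    (hY : ContDiffAt ℝ k Y z) (hU : ContDiffAt ℝ k U z) (hB : ContDiffAt ℝ k B z)
    (h1 : |(U z).im| < 1) (h2 : ‖B z‖ ≤ 1) :
    ContDiffAt ℝ k (fun v => Φ (e.symm (Y v)) (U v) (B v)) z := by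
  have h3 : ContDiffAt ℝ k (fun v => cX e c (Y v)) z :=
    ContDiffAt.comp (g := cX e c) z (hz ▸ (h.ck e he hx).of_le hk) hY
  have h4 : ContDiffAt ℝ k Θ (cX e c (Y z), U z, B z) := by
    rw [cX, hz, e.left_inv hx]
    exact (h.hol _ _ h1 h2 k).restrict_scalars ℝ
  refine (ContDiffAt.comp (g := Θ) z h4 (h3.prodMk (hU.prodMk hB))).congr_of_eventuallyEq ?_
  have h5 : Tendsto Y (𝓝 z) (𝓝 (e x)) := hz ▸ hY.continuousAt
  filter_upwards [h5.eventually ((P218VA.tendsto_symm hx).eventually h.eq)] with v hv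
  exact hv _ _

lemma Rep.ckAt (h : Rep Φ T x c Θ Θ') {k : WithTop ℕ∞} (hk : k ≤ ∞) {U : M → ℂ} {B : M → P}
    (hU : CkAt k U x) (hB : CkAt k B x) (h1 : |(U x).im| < 1) (h2 : ‖B x‖ ≤ 1) :
    CkAt k (fun y => Φ y (U y) (B y)) x := fun e he hx =>
  h.contDiffAt hk he hx rfl contDiffAt_id (hU e he hx) (hB e he hx)
    (by simpa only [cX, e.left_inv hx] using h1) (by simpa only [cX, e.left_inv hx] using h2)

/-- holomorphy at a fixed point -/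
lemma Rep.holo (h : Rep Φ T x c Θ Θ') {U : ℂ} {B : P} (h1 : |U.im| < 1) (h2 : ‖B‖ ≤ 1)
    (n : WithTop ℕ∞) : ContDiffAt ℂ n (fun q : ℂ × P => Φ x q.1 q.2) (U, B) := by
  have : (fun q : ℂ × P => Φ x q.1 q.2) = fun q => Θ (c x, q) :=
    funext fun q => h.eq.self_of_nhds _ _
  rw [this]
  exact ContDiffAt.comp (g := Θ) _ (h.hol U B h1 h2 n) (by fun_prop)

end Rep

variable {S : Set E3} {w : E3 → ℝ} {δ C : ℝ} {ι κ M : Type} [TopologicalSpace M]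
  [ChartedSpace E2 M] (m : Model S w δ C ι κ M) (ε : ι ⊕ κ → Bool) (a : ℝ)

/-- the data on an end in polar coordinates -/
def cP (j : ι ⊕ κ) (p : ℝ × ℝ) : ZZ :=
  (![cx (m.F ((ends m).Y j p)), cx (m.nu ((ends m).Y j p)), (fr m j).γ p.2, (fr m j).n p.2],
    ![((1 - st a p.1 : ℝ) : ℂ), ((st a p.1 : ℝ) : ℂ), rt p.1, scl j p.1, (ub m j p : ℝ),
      ((st (a + 1) p.1 : ℝ) : ℂ)])

lemma per_cP (j : ι ⊕ κ) : Per (cP m a j) := fun r θ => by
  simp only [cP, Ends.per_Y j r θ, per_ub m j r θ, Frame.γ_per, Frame.n_per]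

lemma contDiffAt_cP (j : ι ⊕ κ) {p : ℝ × ℝ} (hp : m.w0 < p.1) : ContDiffAt ℝ ∞ (cP m a j) p := by
  have h0 : 0 < p.1 := by linarith [m.one_le]
  have hr := Ends.Y_reg (𝓔 := ends m) j hp
  have h1 : ∀ b, ContDiffAt ℝ ∞ (fun q : ℝ × ℝ => st b q.1) p := fun b =>
    ((contDiff_st b).comp contDiff_fst).contDiffAt
  have h2 := Complex.ofRealCLM.contDiff (n := ∞)
  refine ContDiffAt.prodMk (contDiffAt_pi.2 fun i => ?_) (contDiffAt_pi.2 fun i => ?_)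
  · fin_cases i
    · exact cx.contDiff.contDiffAt.comp p (Ends.contDiffAt_Y (𝓔 := ends m) hp (m.ckAt_F hr))
    · exact cx.contDiff.contDiffAt.comp p (Ends.contDiffAt_Y (𝓔 := ends m) hp (m.ckAt_nu hr))
    · exact ((fr m j).γ_sm.comp contDiff_snd).contDiffAt
    · exact ((fr m j).n_sm.comp contDiff_snd).contDiffAt
  · fin_cases i
    · exact h2.contDiffAt.comp p (contDiffAt_const.sub (h1 a))
    · exact h2.contDiffAt.comp p (h1 a)
    · exact (P218XI.contDiffAt_rt h0).comp p contDiffAt_fst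
    · exact (contDiffAt_scl j h0).comp p contDiffAt_fst
    · exact h2.contDiffAt.comp p (contDiffAt_ub m j hp)
    · exact h2.contDiffAt.comp p (h1 (a + 1))

variable [Fintype ι] [Fintype κ]

lemma Phi_cP (j : ι ⊕ κ) {p : ℝ × ℝ} (hp : m.w0 < p.1) (U : ℂ) (B : ι × Fin 2 → ℂ) :
    Phi m ε a ((ends m).Y j p) U B = Th (rotM m j) (sgn (ε j)) (cP m a j p, U, B) := by
  rw [Phi_Y0 m ε a j hp, XE, Frame.X_eq]
  rfl

lemma Tv_cP (j : ι ⊕ κ) {p : ℝ × ℝ} (hp : m.w0 < p.1) (U : ℂ) (B : ι × Fin 2 → ℂ) :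
    Tv m ε a ((ends m).Y j p) U B = Th' (rotM m j) (sgn (ε j)) (cP m a j p, U, B) := by
  rw [Tv_Y0 m ε a j hp, TE, Xt_eq]
  rfl

lemma hol_cP (j : ι ⊕ κ) {p : ℝ × ℝ} (hp : m.w0 < p.1) {U : ℂ} {B : ι × Fin 2 → ℂ}
    (h1 : |U.im| < 1) (h2 : ‖B‖ ≤ 1) (n : WithTop ℕ∞) :
    ContDiffAt ℂ n (Th (rotM m j) (sgn (ε j))) (cP m a j p, U, B) ∧
      ContDiffAt ℂ n (Th' (rotM m j) (sgn (ε j))) (cP m a j p, U, B) :=
  contDiffAt_Th (fun i k => contDiffAt_rotM m j (B := fun B => B) (fun l => by fun_prop)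
    (tilt_ne ((norm_st_smul _ _ B).trans h2)) i k)
    (lam_tE m ε j (m.one_le.trans hp.le) h1)

variable {a} [T2Space M] [RSm E2 M] {x : M}

theorem exists_rep (ha : m.w0 < a) (hx : x ∈ m.reg) :
    ∃ c Θ Θ', Rep (Phi m ε a) (Tv m ε a) x c Θ Θ' := by
  rcases reg_cases m hx with h | ⟨j, p, hp, rfl⟩
  · have h1 : ∀ᶠ y in 𝓝 x, y ∈ (ends m).below a :=
      (Ends.isOpen_below ha).mem_nhds (Ends.below_of_core h a)
    refine ⟨fun y => (![cx (m.F y), cx (m.nu y), 0, 0], 0),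
      fun q => q.1.1 0 + q.2.1 • q.1.1 1, fun q => q.1.1 1, fun e he hxe => ?_,
      h1.mono fun y hy U B => Phi_below m ε a hy U B,
      h1.mono fun y hy U B => Tv_below m ε a hy U B, fun U B _ _ n => by fun_prop,
      fun U B _ _ n => by fun_prop⟩
    refine ContDiffAt.prodMk (contDiffAt_pi.2 fun i => ?_) contDiffAt_const
    fin_cases i
    · exact cx.contDiff.contDiffAt.comp _ (m.ckAt_F hx e he hxe)
    · exact cx.contDiff.contDiffAt.comp _ (m.ckAt_nu hx e he hxe)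
    · exact contDiffAt_const
    · exact contDiffAt_const
  · have h1 : ∀ {q : ℝ × ℝ}, m.w0 < q.1 →
        (ends m).onEnd j (cP m a j) ((ends m).Y j q) = cP m a j q := fun hq =>
      Ends.onEnd_Y (per_cP m a j) hq
    have h2 := Ends.ev_w0 (𝓔 := ends m) hp
    refine ⟨(ends m).onEnd j (cP m a j), Th (rotM m j) (sgn (ε j)), Th' (rotM m j) (sgn (ε j)),
      Ends.ckAt_Y le_rfl hp ((contDiffAt_cP m a j hp).congr_of_eventuallyEq
        (h2.mono fun q hq => h1 hq)), (Ends.ev_Y j hp).2 (h2.mono fun q hq U B => ?_),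
      (Ends.ev_Y j hp).2 (h2.mono fun q hq U B => ?_), fun U B hU hB n => ?_,
      fun U B hU hB n => ?_⟩
    · rw [h1 hq, Phi_cP m ε a j hq]
    · rw [h1 hq, Tv_cP m ε a j hq]
    · rw [h1 hp]; exact (hol_cP m ε a j hp hU hB n).1
    · rw [h1 hp]; exact (hol_cP m ε a j hp hU hB n).2

lemma im_lt {U : ℂ} (h : ‖U‖ < 1) : |U.im| < 1 := (Complex.abs_im_le_norm U).trans_lt h

lemma hasDerivAt_XE (j : ι ⊕ κ) {p : ℝ × ℝ} (hp : 1 ≤ p.1) {U : ℂ} (hU : |U.im| < 1)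
    (B : ι × Fin 2 → ℂ) : HasDerivAt (fun U => XE m ε j p U B) (TE m ε j p U B) U := by
  have h1 : HasDerivAt (tE m ε j p) (scl j p.1 * sgn (ε j)) U := by
    exact ((((hasDerivAt_id U).const_mul (sgn (ε j) : ℂ)).const_add
      (ub m j p : ℂ)).const_mul (scl j p.1)).congr_deriv (by rw [mul_one])
  have h2 := (hasDerivAt_X (fr m j) p.1 p.2 (lam_tE m ε j hp hU)).scomp U h1
  have h3 := (LinearMap.toContinuousLinearMap (rotM m j B).mulVecLin).hasFDerivAt.comp_hasDerivAt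
    U h2
  refine h3.congr_deriv ?_
  rw [map_smul]
  rfl

variable (a) in
/-- `Tv` is the derivative of `Phi` -/
theorem hasDerivAt_Phi (hx : x ∈ m.reg) {U : ℂ} (hU : |U.im| < 1) (B : ι × Fin 2 → ℂ) :
    HasDerivAt (fun U => Phi m ε a x U B) (Tv m ε a x U B) U := by
  have h0 : ∀ y, HasDerivAt (fun U : ℂ => cx (m.F y) + U • cx (m.nu y)) (cx (m.nu y)) U :=
    fun y => by simpa using ((hasDerivAt_id U).smul_const (cx (m.nu y))).const_add (cx (m.F y))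
  rcases reg_cases m hx with h | ⟨j, p, hp, rfl⟩
  · simp only [Phi_below m ε a (Ends.below_of_core h a), Tv_below m ε a (Ends.below_of_core h a)]
    exact h0 x
  · simp only [Phi_Y0 m ε a j hp, Tv_Y0 m ε a j hp]
    exact ((h0 _).const_smul ((1 - st a p.1 : ℝ) : ℂ)).add
      ((hasDerivAt_XE m ε j (m.one_le.trans hp.le) hU _).const_smul ((st a p.1 : ℝ) : ℂ))

lemma ckAt_const {G : Type*} [NormedAddCommGroup G] [NormedSpace ℝ G] {k : WithTop ℕ∞} (v : G)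
    (x : M) : CkAt k (fun _ : M => v) x := fun _ _ _ => contDiffAt_const

theorem ckAt_surf' (ha : m.w0 < a) (hx : x ∈ m.reg) {k : WithTop ℕ∞} (hk : k ≤ ∞) {U : M → ℂ}
    {B : ι × Fin 2 → ℂ} (hU : CkAt k U x) (h1 : |(U x).im| < 1) (h2 : ‖B‖ ≤ 1) :
    CkAt k (surf m ε a U B) x := by
  obtain ⟨c, Θ, Θ', h⟩ := exists_rep m ε ha hx
  exact h.ckAt hk hU (ckAt_const B x) h1 h2

theorem ckAt_surf (ha : m.w0 < a) (hx : x ∈ m.reg) {U : M → ℂ} {B : ι × Fin 2 → ℂ}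
    (hU : CkAt 2 U x) (h1 : ‖U x‖ < 1) (h2 : ‖B‖ < 1) : CkAt 2 (surf m ε a U B) x :=
  ckAt_surf' m ε ha hx P218VA.two_le_inf hU (im_lt h1) h2.le

theorem ckAt_Tv (ha : m.w0 < a) (hx : x ∈ m.reg) {k : WithTop ℕ∞} (hk : k ≤ ∞) {U : M → ℂ}
    {B : ι × Fin 2 → ℂ} (hU : CkAt k U x) (h1 : |(U x).im| < 1) (h2 : ‖B‖ ≤ 1) :
    CkAt k (fun y => Tv m ε a y (U y) B) x := by
  obtain ⟨c, Θ, Θ', h⟩ := exists_rep m ε ha hx
  exact h.swap.ckAt hk hU (ckAt_const B x) h1 h2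

theorem holo_Phi (ha : m.w0 < a) (hx : x ∈ m.reg) {U : ℂ} {B : ι × Fin 2 → ℂ} (h1 : |U.im| < 1)
    (h2 : ‖B‖ ≤ 1) (n : WithTop ℕ∞) :
    ContDiffAt ℂ n (fun q : ℂ × (ι × Fin 2 → ℂ) => Phi m ε a x q.1 q.2) (U, B) := by
  obtain ⟨c, Θ, Θ', h⟩ := exists_rep m ε ha hx
  exact h.holo h1 h2 n

theorem holo_Tv (ha : m.w0 < a) (hx : x ∈ m.reg) {U : ℂ} {B : ι × Fin 2 → ℂ} (h1 : |U.im| < 1)
    (h2 : ‖B‖ ≤ 1) (n : WithTop ℕ∞) :
    ContDiffAt ℂ n (fun q : ℂ × (ι × Fin 2 → ℂ) => Tv m ε a x q.1 q.2) (U, B) := by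
  obtain ⟨c, Θ, Θ', h⟩ := exists_rep m ε ha hx
  exact h.swap.holo h1 h2 n

lemma surf_zero (hx : x ∈ m.reg) : surf m ε a (fun _ => 0) 0 =ᶠ[𝓝 x] fun y => cx (m.F y) :=
  (show ∀ᶠ y in 𝓝 x, y ∈ m.reg from m.isOpen_reg.mem_nhds hx).mono fun y hy => Phi_zero m ε a hy

end Vale.Agent.P218CG
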